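import Vale.Agent.P088.H738.E2.Defs
import Vale.Agent.P088.H738.DTop
import Vale.Agent.P088.H323.CSu
import Vale.Agent.P088.H650.CFc

/-!
# P088, theorem E: row E2_AA (Arzelà-Ascoli in `C^∞`)
-/

open MeasureTheory Set Filter Topology
open scoped ContDiff Matrix

noncomputable section

namespace Vale.Agent.P088.H109.AA

open Vale.Agent.P088.LR Vale.Agent.P088.LR.B Vale.Agent.P088.LR.CF Vale.Agent.P088.LR.E

variable {n : ℕ}

theorem compact_core : IsCompact (core n) := H127.isCompact_core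

theorem lip {f : V n → ℝ} (hf : ContDiff ℝ ∞ f) {L : ℝ} (h : ∀ x, ‖iteratedFDeriv ℝ 1 f x‖ ≤ L)
    (x y : V n) : ‖f x - f y‖ ≤ L * ‖x - y‖ := by
  refine Convex.norm_image_sub_le_of_norm_fderiv_le (𝕜 := ℝ) (s := univ)
    (fun z _ => hf.differentiable (by simp) z) (fun z _ => ?_) convex_univ (mem_univ _) (mem_univ _)
  rw [← norm_iteratedFDeriv_one]
  exact h z

/-- Arzelà-Ascoli in `C^0`. -/
theorem aa0 {B₀ L : ℝ} (f : ℕ → V n → ℝ) (hf : ∀ m, ContDiff ℝ ∞ (f m))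
    (h0 : ∀ m, ∀ x ∉ core n, f m x = 0) (hB : ∀ m x, |f m x| ≤ B₀)
    (hL : ∀ m x, ‖iteratedFDeriv ℝ 1 (f m) x‖ ≤ L) :
    ∃ φ : ℕ → ℕ, StrictMono φ ∧ ∀ δ > 0, ∃ M, ∀ i ≥ M, ∀ j ≥ M, ∀ x,
      |f (φ i) x - f (φ j) x| ≤ δ := by
  have : CompactSpace (core n) := isCompact_iff_compactSpace.1 compact_core
  let F : ℕ → BoundedContinuousFunction (core n) ℝ := fun m =>
    BoundedContinuousFunction.mkOfCompact ⟨fun x => f m x, (hf m).continuous.comp continuous_subtype_val⟩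
  have hF : ∀ m (x : core n), F m x = f m x := fun m x => rfl
  have hc : IsCompact (closure (range F)) := by
    refine BoundedContinuousFunction.arzela_ascoli (Icc (-B₀) B₀) isCompact_Icc (range F) ?_ ?_
    · rintro g x ⟨m, rfl⟩
      rw [hF]
      exact abs_le.1 (hB m x)
    · refine Metric.equicontinuous_of_continuity_modulus (fun r => L * r) ?_ _ ?_
      · have : Tendsto (fun r : ℝ => L * r) (𝓝 0) (𝓝 (L * 0)) :=
          (continuous_const.mul continuous_id).tendsto 0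
        rwa [mul_zero] at this
      · rintro x y ⟨g, m, rfl⟩
        show dist (F m x) (F m y) ≤ L * dist x y
        rw [hF, hF, Real.dist_eq, Subtype.dist_eq, dist_eq_norm, ← Real.norm_eq_abs]
        exact lip (hf m) (hL m) _ _
  obtain ⟨a, -, φ, hφ, ht⟩ := hc.tendsto_subseq fun m => subset_closure (mem_range_self m)
  refine ⟨φ, hφ, fun δ hδ => ?_⟩
  obtain ⟨M, hM⟩ := Metric.cauchySeq_iff.1 ht.cauchySeq δ hδ
  refine ⟨M, fun i hi j hj x => ?_⟩
  by_cases hx : x ∈ core n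
  · have h1 := hM i hi j hj
    have h2 := BoundedContinuousFunction.dist_coe_le_dist (f := F (φ i)) (g := F (φ j)) ⟨x, hx⟩
    rw [hF, hF, Real.dist_eq] at h2
    exact h2.trans h1.le
  · rw [h0 _ x hx, h0 _ x hx, sub_zero, abs_zero]
    exact hδ.le

theorem cl_real {k : ℕ} {a : ℝ} {f : V n → ℝ} (hf : ContDiff ℝ ∞ f) (h : Cl k a (cx f)) :
    Cl k a f := by
  intro l hl x
  have h1 : ‖iteratedFDeriv ℝ l (Complex.ofRealLI ∘ f) x‖ = ‖iteratedFDeriv ℝ l f x‖ :=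
    Complex.ofRealLI.norm_iteratedFDeriv_comp_left (n := ∞) hf.contDiffAt
      (by exact_mod_cast le_top)
  rw [← h1]
  exact h l hl x

theorem cl_cx {k : ℕ} {a : ℝ} {f : V n → ℝ} (hf : ContDiff ℝ ∞ f) (h : Cl k a f) :
    Cl k a (cx f) := by
  intro l hl x
  have h1 : ‖iteratedFDeriv ℝ l (Complex.ofRealLI ∘ f) x‖ = ‖iteratedFDeriv ℝ l f x‖ :=
    Complex.ofRealLI.norm_iteratedFDeriv_comp_left (n := ∞) hf.contDiffAt
      (by exact_mod_cast le_top)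
  have h2 : ‖iteratedFDeriv ℝ l (cx f) x‖ = ‖iteratedFDeriv ℝ l f x‖ := h1
  rw [h2]
  exact h l hl x

/-- Cauchy in `C^0` implies Cauchy in every `C^k`. -/
theorem cauchy_k {B : ℕ → ℝ} (f : ℕ → V n → ℝ) (hf : ∀ m, ContDiff ℝ ∞ (f m))
    (h0 : ∀ m, ∀ x ∉ core n, f m x = 0) (hB : ∀ m, Cb m B (f m)) {φ : ℕ → ℕ} (hφ : StrictMono φ)
    (hc : ∀ δ > 0, ∃ M, ∀ i ≥ M, ∀ j ≥ M, ∀ x, |f (φ i) x - f (φ j) x| ≤ δ) (k : ℕ) {δ : ℝ}
    (hδ : 0 < δ) : ∃ M, ∀ i ≥ M, ∀ j ≥ M, Cl k δ (fun x => f (φ i) x - f (φ j) x) := by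
  obtain ⟨M₀, hM₀⟩ := CD.H738.interp P088.H323.rowIN n k
  set B₁ : ℝ := 1 + 2 * ∑ l ∈ Finset.range (M₀ + 1), |B l| with hB₁
  have hS : 0 ≤ ∑ l ∈ Finset.range (M₀ + 1), |B l| := Finset.sum_nonneg fun _ _ => abs_nonneg _
  obtain ⟨ε, hε, H⟩ := hM₀ B₁ (by linarith) δ hδ
  obtain ⟨M₁, hM₁⟩ := hc ε hε
  refine ⟨max M₀ M₁, fun i hi j hj => ?_⟩
  have hi0 : M₀ ≤ φ i := (le_max_left _ _).trans (hi.trans (hφ.id_le i))
  have hj0 : M₀ ≤ φ j := (le_max_left _ _).trans (hj.trans (hφ.id_le j))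
  have hs : ContDiff ℝ ∞ (fun x => f (φ i) x - f (φ j) x) := (hf _).sub (hf _)
  refine cl_real hs (H _ (Complex.ofRealCLM.contDiff.comp hs) ?_ ?_ (cl_cx hs ?_))
  · intro x hx
    show (((f (φ i) x - f (φ j) x : ℝ)) : ℂ) = 0
    rw [h0 _ x hx, h0 _ x hx, sub_zero, Complex.ofReal_zero]
  · intro x
    show ‖(((f (φ i) x - f (φ j) x : ℝ)) : ℂ)‖ ≤ ε
    rw [Complex.norm_real, Real.norm_eq_abs]
    exact hM₁ i ((le_max_right _ _).trans hi) j ((le_max_right _ _).trans hj) x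
  · intro l hl x
    have h1 : iteratedFDeriv ℝ l (fun x => f (φ i) x - f (φ j) x) x =
        iteratedFDeriv ℝ l (f (φ i)) x - iteratedFDeriv ℝ l (f (φ j)) x := by
      have := iteratedFDeriv_sub_apply (𝕜 := ℝ) (i := l) (x := x)
        (((hf (φ i)).of_le (by exact_mod_cast le_top)).contDiffAt)
        (((hf (φ j)).of_le (by exact_mod_cast le_top)).contDiffAt)
      exact this
    rw [h1]
    have h2 := hB (φ i) l (hl.trans hi0) x
    have h3 := hB (φ j) l (hl.trans hj0) x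
    have h4 : |B l| ≤ ∑ l ∈ Finset.range (M₀ + 1), |B l| :=
      Finset.single_le_sum (f := fun l => |B l|) (fun _ _ => abs_nonneg _)
        (Finset.mem_range.2 (by omega))
    have h5 := le_abs_self (B l)
    refine (norm_sub_le _ _).trans ?_
    rw [hB₁]
    linarith

/-- A `C^∞`-Cauchy sequence converges in every `C^k` along a subsequence. -/
theorem conv {f : ℕ → V n → ℝ} (hf : ∀ m, ContDiff ℝ ∞ (f m)) (h0 : ∀ m, ∀ x ∉ core n, f m x = 0)
    (hc : ∀ (k : ℕ) (δ : ℝ), 0 < δ → ∃ M, ∀ i ≥ M, ∀ j ≥ M, Cl k δ (fun x => f i x - f j x)) :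
    ∃ (ψ : ℕ → ℕ) (g : V n → ℝ), StrictMono ψ ∧ ContDiff ℝ ∞ g ∧ (∀ x ∉ core n, g x = 0) ∧
      ∀ (k : ℕ) (δ : ℝ), 0 < δ → ∃ M, ∀ m ≥ M, Cl k δ (fun x => f (ψ m) x - g x) := by
  obtain ⟨ψ, hψ, hP⟩ := extraction_forall_of_eventually
    (P := fun a b => ∀ i ≥ b, ∀ j ≥ b, Cl a ((1 / 2 : ℝ) ^ a) (fun x => f i x - f j x)) (fun a => by
      obtain ⟨M, hM⟩ := hc a ((1 / 2) ^ a) (by positivity)
      filter_upwards [eventually_ge_atTop M] with b hb i hi j hj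
      exact hM i (hb.trans hi) j (hb.trans hj))
  set v : ℕ → V n → ℝ := fun j x => f (ψ (j + 1)) x - f (ψ j) x with hv
  have sv : ∀ j, ContDiff ℝ ∞ (v j) := fun j => (hf _).sub (hf _)
  have bv : ∀ j, Cl j ((1 / 2 : ℝ) ^ j) (v j) := fun j =>
    hP j (ψ (j + 1)) (hψ.monotone (by omega)) (ψ j) le_rfl
  have sg2 : Summable fun j : ℕ => (1 / 2 : ℝ) ^ j :=
    summable_geometric_of_lt_one (by norm_num) (by norm_num)
  have hsum : ∀ x, Summable fun j => v j x := fun x => by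
    refine Summable.of_norm_bounded sg2 fun j => ?_
    have := bv j 0 (Nat.zero_le _) x
    rwa [norm_iteratedFDeriv_zero] at this
  have sT : ContDiff ℝ ∞ fun x => ∑' j, v j x := by
    refine contDiff_tsum_of_eventually (N := ⊤) (v := fun _ j => (1 / 2 : ℝ) ^ j) sv
      (fun k _ => sg2) fun k _ => ?_
    rw [Nat.cofinite_eq_atTop]
    filter_upwards [eventually_ge_atTop k] with j hj x
    exact bv j k hj x
  refine ⟨ψ, fun x => f (ψ 0) x + ∑' j, v j x, hψ, (hf _).add sT, ?_, ?_⟩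
  · intro x hx
    have : ∀ j, v j x = 0 := fun j => by
      simp only [hv]
      rw [h0 _ x hx, h0 _ x hx, sub_zero]
    simp only [this, tsum_zero]
    rw [h0 _ x hx, add_zero]
  · intro k δ hδ
    obtain ⟨M, hM⟩ := exists_pow_lt_of_lt_one (show 0 < δ / 2 by positivity)
      (show (1 / 2 : ℝ) < 1 by norm_num)
    refine ⟨max M k, fun m hm => ?_⟩
    have hkm : k ≤ m := (le_max_right _ _).trans hm
    have hMm : M ≤ m := (le_max_left _ _).trans hm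
    have tel : ∀ x, ∀ m, ∑ j ∈ Finset.range m, v j x = f (ψ m) x - f (ψ 0) x := by
      intro x m
      exact Finset.sum_range_sub (fun j => f (ψ j) x) m
    have e1 : (fun x => f (ψ m) x - (f (ψ 0) x + ∑' j, v j x)) =
        fun x => -(∑' j, v (j + m) x) := by
      funext x
      have h1 := (hsum x).sum_add_tsum_nat_add m
      rw [tel x m] at h1
      linarith
    rw [e1]
    intro l hl x
    have h2 : ‖iteratedFDeriv ℝ l (fun x => -(∑' j, v (j + m) x)) x‖ =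
        ‖iteratedFDeriv ℝ l (fun x => ∑' j, v (j + m) x) x‖ := by
      have h3 : (fun x => -(∑' j, v (j + m) x)) = -(fun x => ∑' j, v (j + m) x) := rfl
      rw [h3, iteratedFDeriv_neg_apply, norm_neg]
    rw [h2]
    have h4 : iteratedFDeriv ℝ l (fun y => ∑' j, v (j + m) y) x =
        ∑' j, iteratedFDeriv ℝ l (v (j + m)) x :=
      iteratedFDeriv_tsum_apply (𝕜 := ℝ) (N := (m : ℕ∞)) (f := fun j => v (j + m))
        (v := fun _ j => (1 / 2 : ℝ) ^ (j + m))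
        (fun j => (sv _).of_le (by exact_mod_cast le_top))
        (fun k _ => (summable_nat_add_iff m).2 sg2)
        (fun k' j y hk' => bv (j + m) k' (by
          have : k' ≤ m := by exact_mod_cast hk'
          omega) y)
        (by exact_mod_cast hl.trans hkm) x
    rw [h4]
    have s5 : Summable fun j : ℕ => (1 / 2 : ℝ) ^ (j + m) := (summable_nat_add_iff m).2 sg2
    have h6 : ∀ j, ‖iteratedFDeriv ℝ l (v (j + m)) x‖ ≤ (1 / 2 : ℝ) ^ (j + m) := fun j =>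
      bv (j + m) l (by omega) x
    have h7 : Summable fun j => ‖iteratedFDeriv ℝ l (v (j + m)) x‖ :=
      Summable.of_nonneg_of_le (fun _ => norm_nonneg _) h6 s5
    have h8 : ∑' j : ℕ, (1 / 2 : ℝ) ^ (j + m) = 2 * (1 / 2) ^ m := by
      simp only [pow_add]
      rw [tsum_mul_right, tsum_geometric_of_lt_one (by norm_num) (by norm_num)]
      norm_num
    have h9 : (1 / 2 : ℝ) ^ m ≤ (1 / 2) ^ M :=
      pow_le_pow_of_le_one (by norm_num) (by norm_num) hMm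
    calc ‖∑' j, iteratedFDeriv ℝ l (v (j + m)) x‖ ≤ ∑' j, ‖iteratedFDeriv ℝ l (v (j + m)) x‖ :=
          norm_tsum_le_tsum_norm h7
      _ ≤ ∑' j : ℕ, (1 / 2 : ℝ) ^ (j + m) := h7.tsum_le_tsum h6 s5
      _ = 2 * (1 / 2) ^ m := h8
      _ ≤ δ := by linarith

/-- **Row E2_AA** -/
theorem aa {n : ℕ} (B : ℕ → ℝ) (f : ℕ → V n → ℝ) (hf : ∀ m, ContDiff ℝ ∞ (f m))
    (h0 : ∀ m, ∀ x ∉ core n, f m x = 0) (hB : ∀ m, Cb m B (f m)) :
    ∃ (φ : ℕ → ℕ) (g : V n → ℝ), StrictMono φ ∧ ContDiff ℝ ∞ g ∧ (∀ x ∉ core n, g x = 0) ∧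
      ∀ (k : ℕ) (δ : ℝ), 0 < δ → ∃ M, ∀ m ≥ M, Cl k δ (fun x => f (φ m) x - g x) := by
  obtain ⟨φ, hφ, hc⟩ := aa0 (B₀ := B 0) (L := B 1) (fun m => f (m + 1)) (fun m => hf _)
    (fun m => h0 _) (fun m x => by
      have := hB (m + 1) 0 (Nat.zero_le _) x
      rwa [norm_iteratedFDeriv_zero, Real.norm_eq_abs] at this)
    (fun m x => hB (m + 1) 1 (by omega) x)
  set φ' : ℕ → ℕ := fun m => φ m + 1 with hφ'
  have sφ' : StrictMono φ' := fun a b hab => Nat.add_lt_add_right (hφ hab) 1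
  obtain ⟨ψ, g, hψ, sg, g0, hg⟩ := conv (f := fun m => f (φ' m)) (fun m => hf _) (fun m => h0 _)
    fun k δ hδ => cauchy_k f hf h0 hB sφ' hc k hδ
  exact ⟨φ' ∘ ψ, g, sφ'.comp hψ, sg, g0, hg⟩

/-- **Row E2_AA**, literal. -/
theorem rowAA : E2.RowAA := fun _ B f hf h0 hB => aa B f hf h0 hB

end Vale.Agent.P088.H109.AA
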